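import Mathlib
import Crest.Prelude.Def_TreePotentials
import Crest.Agent.Helper70.Reflexive
import Crest.Agent.Helper27.Block

/-!
# Reflexivity of the blocks and of their `ℓ²`-sum (helper27, package G1b of row 125)
-/

set_option autoImplicit false

namespace Crest.Agent.Helper27

/-- each block is reflexive (it is isomorphic to a Hilbert space) -/
theorem reflexive_blk (n : ℕ) :
    Function.Surjective (NormedSpace.inclusionInDoubleDual ℝ ↥(blk n)) :=
  Crest.Agent.Helper70.reflexive_of_equiv (blkEquiv n).symm

/-- the `ℓ²`-sum of the blocks is reflexive -/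
theorem reflexive_lp_blk :
    Function.Surjective (NormedSpace.inclusionInDoubleDual ℝ (lp (fun n : ℕ => Blk n) 2)) :=
  Crest.Agent.Helper70.reflexive_lp_two (fun n : ℕ => Blk n) reflexive_blk

end Crest.Agent.Helper27
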