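import Mathlib
import Crest.Prelude.Def_TreePotentials
import Crest.Agent.Helper30.AUCBasic
import Crest.Agent.Helper27.Block
import Crest.Agent.Helper27.BlockTree

/-!
# Trees in an `ℓ²`-sum (helper27, row 125): pushing the K5 tree data of the summands through
the isometric inclusions `lp.single 2 n`, hence no equivalent AUC norm on the `ℓ²`-sum of blocks.
-/

set_option autoImplicit false

open Crest.Agent.Helper30

namespace Crest.Agent.Helper27

/-- If every summand `G n` contains a tree of height `n` as in `Helper30.no_auc_of_trees`, then the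
`ℓ²`-sum has no equivalent asymptotically uniformly convex norm. -/
theorem no_auc_lp_two_of_trees (G : ℕ → Type) [∀ n, NormedAddCommGroup (G n)]
    [∀ n, NormedSpace ℝ (G n)] {κ : ℝ} (hκ : 0 < κ)
    (h : ∀ n : ℕ, ∃ T : ℕ → Set (G n), (∃ z ∈ T 0, κ ≤ ‖z‖) ∧ (∀ j ≤ n, ∀ z ∈ T j, ‖z‖ ≤ 1) ∧
      ∀ j < n, ∀ z ∈ T j, ∃ u : ℕ → G n, (∀ k, u k ∈ T (j + 1)) ∧
        WeaklyNull (fun k => u k - z) ∧ ∀ k, κ ≤ ‖u k - z‖)
    {N : lp G 2 → ℝ} (hN : IsEquivNormOn N) : ¬ IsAUCOn N := by
  refine no_auc_of_trees hκ (fun n => ?_) hN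
  obtain ⟨T, ⟨z0, hz0, hz0κ⟩, hT1, hT2⟩ := h n
  let ι : G n →L[ℝ] lp G 2 := lp.singleContinuousLinearMap ℝ G 2 n
  have hι : ∀ x : G n, ‖ι x‖ = ‖x‖ := fun x => lp.norm_single (by norm_num) n x
  refine ⟨fun j => ι '' T j, ⟨ι z0, ⟨z0, hz0, rfl⟩, by rw [hι]; exact hz0κ⟩, ?_, ?_⟩
  · rintro j hj _ ⟨x, hx, rfl⟩
    rw [hι]; exact hT1 j hj x hx
  · rintro j hj _ ⟨x, hx, rfl⟩
    obtain ⟨u, hu1, hu2, hu3⟩ := hT2 j hj x hx
    refine ⟨fun k => ι (u k), fun k => ⟨u k, hu1 k, rfl⟩, ?_, fun k => ?_⟩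
    · have h1 := hu2.comp_clm ι
      have h2 : (fun k => ι (u k - x)) = fun k => ι (u k) - ι x := by
        funext k; exact map_sub ι (u k) x
      rw [h2] at h1
      exact h1
    · rw [← map_sub, hι]; exact hu3 k

/-- no equivalent AUC norm on the `ℓ²`-sum of the blocks -/
theorem no_auc_lp_blk {N : lp (fun n : ℕ => Blk n) 2 → ℝ} (hN : IsEquivNormOn N) :
    ¬ IsAUCOn N :=
  no_auc_lp_two_of_trees (fun n : ℕ => Blk n) one_pos blk_tree hN

end Crest.Agent.Helper27

namespace Crest.Agent.Helper27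

/-- the `ℓ²`-sum of the blocks is not finite-dimensional -/
theorem not_finiteDimensional_lp_blk : ¬ FiniteDimensional ℝ (lp (fun n : ℕ => Blk n) 2) := by
  let ι : Blk 1 →L[ℝ] lp (fun n : ℕ => Blk n) 2 :=
    lp.singleContinuousLinearMap ℝ (fun n : ℕ => Blk n) 2 1
  have hι : ∀ x : Blk 1, ‖ι x‖ = ‖x‖ := fun x => lp.norm_single (by norm_num) 1 x
  have hw : WeaklyNull (fun k : ℕ => ι (e 1 (k :: []))) :=
    (weaklyNull_e 1 [] (by simp)).comp_clm ι
  refine not_finiteDimensional_of_weaklyNull hw one_pos (fun k => ?_)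
  rw [hι, norm_e (by simp)]

/-- an `ℓ²`-sum of countably many separable spaces is separable -/
theorem separableSpace_lp_two (G : ℕ → Type) [∀ n, NormedAddCommGroup (G n)]
    [∀ n, NormedSpace ℝ (G n)] [∀ n, TopologicalSpace.SeparableSpace (G n)] :
    TopologicalSpace.SeparableSpace (lp G 2) := by
  rw [← TopologicalSpace.isSeparable_univ_iff]
  set D : Set (lp G 2) := ⋃ n : ℕ, Set.range (lp.single (E := G) 2 n) with hD
  have hDsep : TopologicalSpace.IsSeparable D := by
    apply TopologicalSpace.IsSeparable.iUnion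
    intro n
    exact TopologicalSpace.isSeparable_range (lp.isometry_single n).continuous
  have h1 : TopologicalSpace.IsSeparable (closure (Submodule.span ℝ D : Set (lp G 2))) :=
    (hDsep.span (R := ℝ)).closure
  have h2 : closure (Submodule.span ℝ D : Set (lp G 2)) = Set.univ := by
    rw [Set.eq_univ_iff_forall]
    intro f
    have hs := lp.hasSum_single (p := 2) (by simp) f
    refine mem_closure_of_tendsto hs (Filter.Eventually.of_forall fun A => ?_)
    apply Submodule.sum_mem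
    intro i _
    apply Submodule.subset_span
    exact Set.mem_iUnion.mpr ⟨i, ⟨f i, rfl⟩⟩
  rw [← h2]
  exact h1

/-- the `ℓ²`-sum of the blocks is separable -/
instance separableSpace_lp_blk : TopologicalSpace.SeparableSpace (lp (fun n : ℕ => Blk n) 2) :=
  separableSpace_lp_two (fun n : ℕ => Blk n)

end Crest.Agent.Helper27
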